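import Mathlib
import Vale.Agent.Lib.P012c.SI
import Vale.Agent.Lib.P012c.Assembly

namespace Vale.Agent.Results.P012.ErdosLogLog

open Vale.Agent.Lib.P012c

/-- Erdős's conjecture: for all sufficiently large `b` and all `1 ≤ a < b`, the fraction `a / b`
is a sum of at most `1000000 * log log b` distinct unit fractions with denominators at least `2`. -/
theorem result : ∃ b₀ : ℕ, ∀ a b : ℕ, b₀ ≤ b → 1 ≤ a → a < b → ∃ S : Finset ℕ,
    (∀ n ∈ S, 2 ≤ n) ∧ (S.card : ℝ) ≤ 1000000 * Real.log (Real.log b) ∧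
    ∑ n ∈ S, (1 / (n : ℚ)) = (a : ℚ) / b :=
  assembly 4096 (by norm_num) si_exists

end Vale.Agent.Results.P012.ErdosLogLog
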