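import Mathlib
import Vale.Agent.Lib.P012b.Schedule

namespace Vale.Agent.Results.P012.LogLogLogLog

open Vale.Agent.Lib.P012 Vale.Agent.Lib.P012b

lemma sum_inv_le (n : ℕ) : ∑ w ∈ Finset.Ico 1 (n + 1), (1 / (w : ℝ)) ≤ 1 + Real.log n := by
  have h := harmonic_le_one_add_log n
  have h2 : ((harmonic n : ℚ) : ℝ) = ∑ w ∈ Finset.Ico 1 (n + 1), (1 / (w : ℝ)) := by
    rw [Finset.sum_Ico_eq_sum_range]
    unfold harmonic
    push_cast
    simp only [one_div]
    apply Finset.sum_congr rfl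
    intro i _
    rw [add_comm]
  rwa [h2] at h

lemma cst_le_real (e : ℕ) :
    (cst e e : ℝ) ≤ e + 4 * (7 * (e : ℝ) + 28) * (1 + Real.log e) := by
  set B := 4 * (7 * e + 28) with hB
  have h1 : cst e e = ∑ w ∈ Finset.Ico 1 (e - 3), (B / w + 1) := by
    unfold cst
    have := Finset.sum_Ico_reflect (fun w => B / w + 1) 4 (m := e) (n := e) (by omega)
    rw [this]
    congr 2
    omega
  have h2 : cst e e ≤ ∑ w ∈ Finset.Ico 1 (e + 1), (B / w + 1) := by
    rw [h1]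
    exact Finset.sum_le_sum_of_subset (Finset.Ico_subset_Ico le_rfl (by omega))
  have h3 : ((∑ w ∈ Finset.Ico 1 (e + 1), (B / w + 1) : ℕ) : ℝ) ≤
      ∑ w ∈ Finset.Ico 1 (e + 1), ((B : ℝ) * (1 / (w : ℝ)) + 1) := by
    push_cast
    apply Finset.sum_le_sum
    intro w _
    have : ((B / w : ℕ) : ℝ) ≤ (B : ℝ) / (w : ℝ) := Nat.cast_div_le
    rw [mul_one_div]
    linarith
  have h4 : ∑ w ∈ Finset.Ico 1 (e + 1), ((B : ℝ) * (1 / (w : ℝ)) + 1) =
      (B : ℝ) * ∑ w ∈ Finset.Ico 1 (e + 1), (1 / (w : ℝ)) + e := by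
    rw [Finset.sum_add_distrib, ← Finset.mul_sum]
    simp
  have h5 : (B : ℝ) * ∑ w ∈ Finset.Ico 1 (e + 1), (1 / (w : ℝ)) ≤ (B : ℝ) * (1 + Real.log e) := by
    apply mul_le_mul_of_nonneg_left (sum_inv_le e)
    positivity
  have h6 : (cst e e : ℝ) ≤ ((∑ w ∈ Finset.Ico 1 (e + 1), (B / w + 1) : ℕ) : ℝ) := by
    exact_mod_cast h2
  have h7 : (B : ℝ) = 4 * (7 * (e : ℝ) + 28) := by
    rw [hB]
    push_cast
    ring
  rw [← h7]
  linarith

lemma two_pow_ge' (e : ℕ) (he : 8 ≤ e) : 14 * e + 58 ≤ 2 ^ e := by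
  induction e, he using Nat.le_induction with
  | base => norm_num
  | succ n hn ih =>
    rw [pow_succ]
    omega

lemma card_bound (e c : ℕ) (he8 : 8 ≤ e)
    (h1 : c ≤ 2 * e + 2 + 2 * (80 * (7 * e + 28) + 83 + 6 * cst e e)) :
    (c : ℝ) ≤ (e : ℝ) * (2219 + 504 * Real.log e) := by
  have he8r : (8 : ℝ) ≤ e := by exact_mod_cast he8
  have h3 : (c : ℝ) ≤ ((2 * e + 2 + 2 * (80 * (7 * e + 28) + 83 + 6 * cst e e) : ℕ) : ℝ) := by
    exact_mod_cast h1
  push_cast at h3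
  have h4 := cst_le_real e
  have hlogE : 0 ≤ Real.log e := Real.log_natCast_nonneg e
  have h5 : 7 * (e : ℝ) + 28 ≤ 10.5 * e := by linarith
  have h6 : 4 * (7 * (e : ℝ) + 28) * (1 + Real.log e) ≤ 4 * (10.5 * e) * (1 + Real.log e) := by
    gcongr
  nlinarith

lemma log_bound (b : ℕ) (hb : 65536 ≤ b) : 2 ≤ Real.log (Real.log b) := by
  have hlog2 : (0.6931471803 : ℝ) < Real.log 2 := Real.log_two_gt_d9
  have hbr : (65536 : ℝ) ≤ (b : ℝ) := by exact_mod_cast hb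
  have hlogb : (11 : ℝ) ≤ Real.log b := by
    have h1 : Real.log 65536 ≤ Real.log b := Real.log_le_log (by norm_num) hbr
    have h3 : Real.log 65536 = 16 * Real.log 2 := by
      rw [show (65536 : ℝ) = 2 ^ 16 by norm_num, Real.log_pow]
      norm_num
    linarith
  rw [Real.le_log_iff_exp_le (by linarith)]
  have h1 := Real.exp_one_lt_d9
  have h2 : Real.exp 2 = Real.exp 1 ^ 2 := by
    rw [← Real.exp_nat_mul]
    norm_num
  have h3 : 0 < Real.exp 1 := Real.exp_pos 1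
  rw [h2]
  nlinarith

lemma small_case (c : ℕ) {l : ℝ} (hl2 : 2 ≤ l)
    (hcard : (c : ℝ) ≤ ((8 : ℕ) : ℝ) * (2219 + 504 * Real.log ((8 : ℕ) : ℝ))) :
    (c : ℝ) ≤ 32768 * l * Real.log l := by
  have hlog2 : (0.6931471803 : ℝ) < Real.log 2 := Real.log_two_gt_d9
  have hlog2' : Real.log 2 < (0.6931471808 : ℝ) := Real.log_two_lt_d9
  have hlam : Real.log 2 ≤ Real.log l := Real.log_le_log (by norm_num) hl2
  have hlog8 : Real.log ((8 : ℕ) : ℝ) ≤ 2.08 := by
    have h3 : Real.log ((8 : ℕ) : ℝ) = 3 * Real.log 2 := by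
      rw [show (((8 : ℕ) : ℝ)) = 2 ^ 3 by norm_num, Real.log_pow]
      norm_num
    rw [h3]
    linarith
  have h9 : (c : ℝ) ≤ 26200 := by
    refine hcard.trans ?_
    push_cast at hlog8 ⊢
    nlinarith
  have hmul : (2 : ℝ) * 0.69 ≤ l * Real.log l := by
    apply mul_le_mul hl2 (by linarith) (by norm_num) (by linarith)
  nlinarith

lemma large_case (c f b : ℕ) (hf : 7 ≤ f) (hlt : 2 ^ (2 ^ (f + 1)) < b)
    (hcard : (c : ℝ) ≤ ((f + 2 : ℕ) : ℝ) * (2219 + 504 * Real.log ((f + 2 : ℕ) : ℝ))) :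
    (c : ℝ) ≤ 32768 * Real.log (Real.log b) * Real.log (Real.log (Real.log b)) := by
  have hlog2 : (0.6931471803 : ℝ) < Real.log 2 := Real.log_two_gt_d9
  have hlog2' : Real.log 2 < (0.6931471808 : ℝ) := Real.log_two_lt_d9
  have hbig : ((2 : ℝ) ^ (2 ^ (f + 1))) ≤ (b : ℝ) := by exact_mod_cast hlt.le
  have hlb : (2 : ℝ) ^ f ≤ Real.log b := by
    have h1 : Real.log ((2 : ℝ) ^ (2 ^ (f + 1))) ≤ Real.log b :=
      Real.log_le_log (by positivity) hbig
    rw [Real.log_pow] at h1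
    have h3 : (((2 ^ (f + 1) : ℕ) : ℝ)) = 2 * (2 : ℝ) ^ f := by
      push_cast
      rw [pow_succ]
      ring
    rw [h3] at h1
    have h4 : (0 : ℝ) < 2 ^ f := by positivity
    nlinarith
  set l := Real.log (Real.log b) with hl
  have hlf : (f : ℝ) * Real.log 2 ≤ l := by
    have h1 : Real.log ((2 : ℝ) ^ f) ≤ l := Real.log_le_log (by positivity) hlb
    rw [Real.log_pow] at h1
    exact h1
  have hfr : (7 : ℝ) ≤ f := by exact_mod_cast hf
  set E : ℝ := ((f + 2 : ℕ) : ℝ) with hE'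
  have hEf : E = (f : ℝ) + 2 := by
    rw [hE']
    push_cast
    ring
  have hEl : E ≤ 2 * l := by
    rw [hEf]
    nlinarith
  have hl4 : 4 ≤ l := by nlinarith
  have hlam2 : 2 * Real.log 2 ≤ Real.log l := by
    have h1 : Real.log 4 ≤ Real.log l := Real.log_le_log (by norm_num) hl4
    have h3 : Real.log 4 = 2 * Real.log 2 := by
      rw [show (4 : ℝ) = 2 ^ 2 by norm_num, Real.log_pow]
      norm_num
    linarith
  have hEpos : 0 < E := by rw [hEf]; linarith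
  have hlogE : Real.log E ≤ Real.log 2 + Real.log l := by
    rw [← Real.log_mul (by norm_num) (by linarith)]
    exact Real.log_le_log hEpos hEl
  have hlamr : (1.38 : ℝ) ≤ Real.log l := by linarith
  have hbr2 : 2219 + 504 * Real.log E ≤ 2400 * Real.log l := by
    nlinarith
  have hlogEnn : 0 ≤ 2219 + 504 * Real.log E := by
    have : 0 ≤ Real.log E := Real.log_nonneg (by rw [hEf]; linarith)
    linarith
  calc (c : ℝ) ≤ E * (2219 + 504 * Real.log E) := hcard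
    _ ≤ (2 * l) * (2400 * Real.log l) := by
        apply mul_le_mul hEl hbr2 hlogEnn (by linarith)
    _ = 4800 * l * Real.log l := by ring
    _ ≤ 32768 * l * Real.log l := by
        have : 0 ≤ l * Real.log l := mul_nonneg (by linarith) (by linarith)
        nlinarith

/-- Every fraction `a / b` with `1 ≤ a < b` and `b ≥ 65536` is a sum of at most
`32768 * log log b * log log log b` distinct unit fractions with denominators at least `2`. -/
theorem result : ∀ a b : ℕ, 65536 ≤ b → 1 ≤ a → a < b → ∃ S : Finset ℕ,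
    (∀ n ∈ S, 2 ≤ n) ∧
    (S.card : ℝ) ≤ 32768 * Real.log (Real.log b) * Real.log (Real.log (Real.log b)) ∧
    ∑ n ∈ S, (1 / (n : ℚ)) = (a : ℚ) / b := by
  intro a b hb ha hab
  have hex : ∃ e : ℕ, 8 ≤ e ∧ b ≤ 2 ^ (2 ^ e) := by
    refine ⟨b + 8, by omega, ?_⟩
    have h1 : b < 2 ^ b := Nat.lt_two_pow_self
    have h2 : 2 ^ b ≤ 2 ^ (b + 8) := Nat.pow_le_pow_right (by norm_num) (by omega)
    have h3 : 2 ^ (b + 8) ≤ 2 ^ (2 ^ (b + 8)) :=
      Nat.pow_le_pow_right (by norm_num) Nat.lt_two_pow_self.le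
    omega
  obtain ⟨e, he, hmin⟩ : ∃ e : ℕ, (8 ≤ e ∧ b ≤ 2 ^ (2 ^ e)) ∧
      ∀ m < e, ¬ (8 ≤ m ∧ b ≤ 2 ^ (2 ^ m)) :=
    ⟨Nat.find hex, Nat.find_spec hex, fun m hm => Nat.find_min hex hm⟩
  obtain ⟨he8, hbe⟩ := he
  obtain ⟨T, R0, k, hcov, hT0, hR1, hR2, hT, hk⟩ := richCov e he8
  have hpowe := two_pow_ge' e he8
  -- the hypotheses of the reduction
  have hE : b * R0 ≤ 2 ^ (2 ^ (2 * e)) := by
    calc b * R0 ≤ 2 ^ (2 ^ e) * 2 ^ (2 * (7 * e + 28) * 2 ^ e + 6) := Nat.mul_le_mul hbe hR2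
      _ = 2 ^ (2 ^ e + (2 * (7 * e + 28) * 2 ^ e + 6)) := (pow_add 2 _ _).symm
      _ ≤ 2 ^ (2 ^ (2 * e)) := by
        apply Nat.pow_le_pow_right (by norm_num)
        have h1 : 2 ^ (2 * e) = 2 ^ e * 2 ^ e := by ring
        rw [h1]
        have h2 : (14 * e + 58) * 2 ^ e ≤ 2 ^ e * 2 ^ e := Nat.mul_le_mul_right _ hpowe
        have h3 : (14 * e + 58) * 2 ^ e = 2 * (7 * e + 28) * 2 ^ e + 2 * 2 ^ e + 0 * 2 ^ e := by ring
        have h4 : 6 ≤ 2 ^ e := by
          omega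
        omega
  have hTb : b * (b * R0) ^ 2 ≤ T := by
    refine le_trans ?_ hT
    have h1 : b * R0 ≤ 2 ^ (2 ^ e) * 2 ^ (2 * (7 * e + 28) * 2 ^ e + 6) := Nat.mul_le_mul hbe hR2
    calc b * (b * R0) ^ 2 ≤ 2 ^ (2 ^ e) * (2 ^ (2 ^ e) * 2 ^ (2 * (7 * e + 28) * 2 ^ e + 6)) ^ 2 := by
          gcongr
      _ = 2 ^ ((4 * (7 * e + 28) + 3) * 2 ^ e + 12) := by
          rw [← pow_add, ← pow_mul, ← pow_add]
          congr 1
          ring
  obtain ⟨S, h2, hc, hsum⟩ := egyptian_of_richCov (T := T) (P := T * R0) rfl hR1 hT0 hcov ha hab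
    hE hTb
  refine ⟨S, h2, ?_, hsum⟩
  have hcard := card_bound e S.card he8 (by omega)
  rcases Nat.lt_or_ge 8 e with h9 | h8
  · -- large case
    have hnot := hmin (e - 1) (by omega)
    have hlt : 2 ^ (2 ^ (e - 1)) < b := by
      by_contra hle
      exact hnot ⟨by omega, by omega⟩
    obtain ⟨f, rfl⟩ : ∃ f, e = f + 2 := ⟨e - 2, by omega⟩
    have hf' : f + 2 - 1 = f + 1 := by omega
    rw [hf'] at hlt
    exact large_case S.card f b (by omega) hlt hcard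
  · -- the smallest scale
    have hE : e = 8 := by omega
    rw [hE] at hcard
    exact small_case S.card (log_bound b hb) hcard

end Vale.Agent.Results.P012.LogLogLogLog
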