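import Mathlib
import Vale.Agent.Lib.P012.Egyptian

namespace Vale.Agent.Results.P012.LogLogSquared

open Vale.Agent.Lib.P012

/-- Every fraction `a / b` with `1 ≤ a < b` and `b ≥ 16` is a sum of at most
`131072 * (log log b) ^ 2` distinct unit fractions with denominators at least `2`. -/
theorem result : ∀ a b : ℕ, 16 ≤ b → 1 ≤ a → a < b → ∃ S : Finset ℕ,
    (∀ n ∈ S, 2 ≤ n) ∧ (S.card : ℝ) ≤ 131072 * (Real.log (Real.log b)) ^ 2 ∧
    ∑ n ∈ S, (1 / (n : ℚ)) = (a : ℚ) / b := by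
  intro a b hb ha hab
  have hex : ∃ e : ℕ, 7 ≤ e ∧ b ≤ 2 ^ (2 ^ e) := by
    refine ⟨b + 7, by omega, ?_⟩
    have h1 : b < 2 ^ b := Nat.lt_two_pow_self
    have h2 : 2 ^ b ≤ 2 ^ (b + 7) := Nat.pow_le_pow_right (by norm_num) (by omega)
    have h3 : 2 ^ (b + 7) ≤ 2 ^ (2 ^ (b + 7)) :=
      Nat.pow_le_pow_right (by norm_num) Nat.lt_two_pow_self.le
    omega
  obtain ⟨e, he, hmin⟩ : ∃ e : ℕ, (7 ≤ e ∧ b ≤ 2 ^ (2 ^ e)) ∧
      ∀ m < e, ¬ (7 ≤ m ∧ b ≤ 2 ^ (2 ^ m)) :=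
    ⟨Nat.find hex, Nat.find_spec hex, fun m hm => Nat.find_min hex hm⟩
  obtain ⟨N, k, H1, H2, hcov, hNpos, _, _, _, _, _, hNbig, hk⟩ := epoch_all e he.1
  obtain ⟨S, h2, hc, hsum⟩ := egyptian_of_cov hNpos hcov ha hab (he.2.trans hNbig)
  refine ⟨S, h2, ?_, hsum⟩
  have hlog2 : (0.6931471803 : ℝ) < Real.log 2 := Real.log_two_gt_d9
  have hbr : (16 : ℝ) ≤ (b : ℝ) := by exact_mod_cast hb
  set l := Real.log (Real.log b) with hl
  have hlogb : (2.77 : ℝ) ≤ Real.log b := by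
    have h1 : Real.log 16 ≤ Real.log b := Real.log_le_log (by norm_num) hbr
    have h3 : Real.log 16 = 4 * Real.log 2 := by
      rw [show (16 : ℝ) = 2 ^ 4 by norm_num, Real.log_pow]
      norm_num
    linarith
  have hl1 : 1 ≤ l := by
    rw [hl, Real.le_log_iff_exp_le (by linarith)]
    have := Real.exp_one_lt_d9
    linarith
  have hcard : (S.card : ℝ) ≤ 2 * (32768 + 48 * (e : ℝ) * (7 * (e : ℝ) + 28)) := by
    have h1 : S.card ≤ 2 * (2 ^ 15 + 48 * e * (7 * e + 28)) := hc.trans (Nat.mul_le_mul_left _ hk)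
    have h3 : (S.card : ℝ) ≤ ((2 * (2 ^ 15 + 48 * e * (7 * e + 28)) : ℕ) : ℝ) := by
      exact_mod_cast h1
    push_cast at h3
    exact h3
  have hl2 : 1 ≤ l ^ 2 := by nlinarith
  rcases Nat.lt_or_ge 7 e with h8 | h7
  · -- large case
    have hnot := hmin (e - 1) (by omega)
    have hlt : 2 ^ (2 ^ (e - 1)) < b := by
      by_contra hle
      exact hnot ⟨by omega, by omega⟩
    obtain ⟨f, rfl⟩ : ∃ f, e = f + 2 := ⟨e - 2, by omega⟩
    have hf : 6 ≤ f := by omega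
    have hf' : f + 2 - 1 = f + 1 := by omega
    rw [hf'] at hlt
    have hbig : ((2 : ℝ) ^ (2 ^ (f + 1))) ≤ (b : ℝ) := by exact_mod_cast hlt.le
    have hlb : (2 : ℝ) ^ f ≤ Real.log b := by
      have h1 : Real.log ((2 : ℝ) ^ (2 ^ (f + 1))) ≤ Real.log b :=
        Real.log_le_log (by positivity) hbig
      rw [Real.log_pow] at h1
      have h3 : (((2 ^ (f + 1) : ℕ) : ℝ)) = 2 * (2 : ℝ) ^ f := by
        push_cast
        rw [pow_succ]
        ring
      rw [h3] at h1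
      have h4 : (0 : ℝ) < 2 ^ f := by positivity
      nlinarith
    have hlf : (f : ℝ) * Real.log 2 ≤ l := by
      have h1 : Real.log ((2 : ℝ) ^ f) ≤ l := Real.log_le_log (by positivity) hlb
      rw [Real.log_pow] at h1
      exact h1
    have hfr : (6 : ℝ) ≤ f := by exact_mod_cast hf
    have hel : ((f + 2 : ℕ) : ℝ) ≤ 2 * l := by
      push_cast
      nlinarith
    have h8r : (8 : ℝ) ≤ ((f + 2 : ℕ) : ℝ) := by
      push_cast
      linarith
    set E : ℝ := ((f + 2 : ℕ) : ℝ) with hE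
    have h1 : 7 * E + 28 ≤ 11 * E := by linarith
    have h3 : E * E ≤ 4 * l ^ 2 := by nlinarith
    have h4 : 48 * E * (7 * E + 28) ≤ 528 * (E * E) := by nlinarith
    nlinarith
  · -- the smallest epoch
    have hE : e = 7 := by omega
    rw [hE] at hcard
    have h9 : (S.card : ℝ) ≤ 117280 := by
      refine hcard.trans_eq ?_
      norm_num
    nlinarith

end Vale.Agent.Results.P012.LogLogSquared
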